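import Vale.Agent.P181.RH.H935.DesA
import Vale.Agent.P181.RH.H467.DesB2
import Vale.Agent.P181.RG.H460.Ext
import Vale.Agent.P181.RH.H460.PeakRH

set_option autoImplicit false

/-!
# P181, RH: the design exists, and the lower bound after peeling two rows
-/

namespace Vale.Agent.P181.RH.H935

open Vale.Agent.P181.RH

theorem desB2 : DesB2 := fun u m D1 D2 R2 R3 k f₀ f₂ F₀ F₂ T s e hN hp =>
  H467.desB2 RG.H460.ext H460.peakRH u m D1 D2 R2 R3 k f₀ f₂ F₀ F₂ T s e hN hp

/-- **[DES]** -/
theorem desRH : DesRH := desRH_of (desA2 RG.H460.ext) desB2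

end Vale.Agent.P181.RH.H935
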