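import Vale.Agent.P181.RH.Defs

set_option autoImplicit false

/-!
# P181, RH [DES]: the interface between the pattern of the free letters and the class letters
-/

namespace Vale.Agent.P181.RH.H935

open Finset Function Vale.Agent.P181.RH
open Vale.Agent.P181.RG (Lt Own Same Thin)

/-- The row of the free letter in the form column `s < D1` of length `2` of exponent `l`. -/
def al1 (D2 l s : ℕ) : ℕ := if s < l / (D2 + 1) then 1 else 0

/-- The row of the free letter in the form column `s < D2` of length `m` of exponent `l`. -/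
def al2 (D2 l s : ℕ) : ℕ := if s < l % (D2 + 1) then 2 else 0

/-- The pattern of the free letters (two lengths). -/
def Pat2 (u m D1 D2 R2 R3 k f₀ f₂ T s : ℕ) (e : Fin u → ℕ) : Prop :=
  ∃ fr : Fin R2 ⊕ Fin R3 → Fin m → Option (Fin u),
    (∀ c, Thin (fr c)) ∧
    (∀ (c : Fin R2) (r : Fin m), 2 ≤ (r : ℕ) → fr (Sum.inl c) r = none) ∧
    (∀ i, D1 + D2 + ∑ c, (univ.filter fun r : Fin m => fr c r = some i).card = e i) ∧
    (∀ (τ : Equiv.Perm (Fin u)) (r : Fin m), (r : ℕ) < 2 →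
      (univ.filter fun p : Fin u × Fin D1 => (r : ℕ) ≠ al1 D2 (τ p.1) p.2).card +
        (univ.filter fun p : Fin u × Fin D2 => (r : ℕ) ≠ al2 D2 (τ p.1) p.2).card +
        (univ.filter fun c : Fin R2 ⊕ Fin R3 => fr c r = none).card = ff m f₀ f₂ r * k) ∧
    (∀ (τ : Equiv.Perm (Fin u)) (r : Fin m), 2 ≤ (r : ℕ) →
      (univ.filter fun p : Fin u × Fin D2 => (r : ℕ) ≠ al2 D2 (τ p.1) p.2).card +
        (univ.filter fun c : Fin R3 => fr (Sum.inr c) r = none).card = ff m f₀ f₂ r * k) ∧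
    (∀ i j : Fin u, i < j → (i : ℕ) / s = (j : ℕ) / s →
      ∃ c : Fin R2, ∀ r : Fin m, fr (Sum.inl c) r = if (r : ℕ) = 0 then some i
        else if (r : ℕ) = 1 then some j else none) ∧
    (∃ γ : Fin u × Fin T → Fin R2, Injective γ ∧
      ∀ p (r : Fin m), fr (Sum.inl (γ p)) r = if (r : ℕ) = 1 then some p.1 else none) ∧
    (∃ γ : Fin u × Fin T → Fin R3, Injective γ ∧
      ∀ p (r : Fin m), fr (Sum.inr (γ p)) r = if (r : ℕ) = 0 then some p.1 else none) ∧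
    (∃ γ : Fin f₀ × Fin f₀ → Fin R2, Injective γ ∧ ∀ p r, fr (Sum.inl (γ p)) r = none) ∧
    (∃ γ : (Fin f₀ × Fin f₂) ⊕ (Fin m × Fin f₂ × Fin f₂) → Fin R3, Injective γ ∧
      ∀ p r, fr (Sum.inr (γ p)) r = none)

/-- **[DES-a]** -/
def DesA2 : Prop :=
  ∀ (u m D1 D2 R2 R3 k f₀ f₂ F₀ F₂ T s : ℕ) (e : Fin u → ℕ),
    NumD u m D1 D2 R2 R3 k f₀ f₂ F₀ F₂ T s →
    2 * ∑ i, e i = 4 * F₀ + 2 * k + 2 * ((m - 2) * F₂) + k * ((m - 2) * (m - 3)) →
    (∀ i, D1 + D2 + s + 2 * T ≤ e i) →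
    Pat2 u m D1 D2 R2 R3 k f₀ f₂ T s e

/-- **[DES-b]** -/
def DesB2 : Prop :=
  ∀ (u m D1 D2 R2 R3 k f₀ f₂ F₀ F₂ T s : ℕ) (e : Fin u → ℕ),
    NumD u m D1 D2 R2 R3 k f₀ f₂ F₀ F₂ T s →
    Pat2 u m D1 D2 R2 R3 k f₀ f₂ T s e →
    LDes u m (D1 + D2) (R2 + R3) k (ff m f₀ f₂) (lf D1 D2 m) (lr R2 R3 m) (pos D1 D2) e

theorem desRH_of (hA : DesA2) (hB : DesB2) : DesRH := by
  intro u m D1 D2 R2 R3 k f₀ f₂ F₀ F₂ T s e hN h1 h2
  exact hB u m D1 D2 R2 R3 k f₀ f₂ F₀ F₂ T s e hN (hA u m D1 D2 R2 R3 k f₀ f₂ F₀ F₂ T s e hN h1 h2)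

end Vale.Agent.P181.RH.H935
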